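import Vale.Agent.P113.Main

open Set Vale.Agent.P113

/-- Question Q1 of P113 has a positive answer: for every computable `ν > 0` there are a point `a`, an
open subset `O` of the torus and a computable force compiler `(M, w) ↦ program of F (M, w)` such that,
for all `t ≥ T₀`, the force `F (M, w)` is periodic in time and independent of `w`, the system from rest
with force `F (M, w)` has a global smooth solution, unique among classical solutions on each `[0, T]`,
and the particle path from `a` visits `O` at some time `t ≥ 0` exactly when `M` halts on `w`. -/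
theorem Vale.Agent.Results.P113.HaltingDetection.result :
    ∀ ν : ℝ, 0 < ν → IsComputableReal ν →
      ∃ (a : V3) (O : Set V3) (T₀ P : ℝ) (compiler : Machine × List ℕ → Nat.Partrec.Code)
        (F : Machine × List ℕ → ℝ → V3 → V3),
        IsOpen O ∧ Periodic3 (fun p => p ∈ O) ∧ 0 < P ∧ Computable compiler ∧
        (∀ M w, IsSmoothField (F (M, w)) ∧ IsProgramFor (compiler (M, w)) (F (M, w))) ∧
        (∀ M w w' t, T₀ ≤ t → F (M, w) t = F (M, w') t) ∧
        (∀ M w t, T₀ ≤ t → F (M, w) (t + P) = F (M, w) t) ∧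
        ∀ M w, ∃ (u : ℝ → V3 → V3) (p : ℝ → V3 → ℝ),
          IsSmoothField u ∧
          (ContDiff ℝ (⊤ : ℕ∞) (fun q : ℝ × V3 => p q.1 q.2) ∧ ∀ t, Periodic3 (p t)) ∧
          (∀ T, 0 < T → IsClassicalSolution ν (F (M, w)) T u p) ∧
          (∀ T, 0 < T → ∀ u' p', IsClassicalSolution ν (F (M, w)) T u' p' →
            ∀ t ∈ Icc 0 T, u' t = u t ∧ p' t = p t) ∧
          (∃ X, IsTrajectory u a X) ∧
          ∀ X, IsTrajectory u a X → ((∃ t, 0 ≤ t ∧ X t ∈ O) ↔ Halts M w) :=
  fun ν hν hc => main_theorem ν hν hc
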